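import Mathlib

/-!
# Means on a set: positive normalised functionals on the bounded real functions

The functional is a total function on all real functions; it is only used on bounded ones.
-/

open Filter Topology Set

namespace Vale.Agent.P011.H722

/-- `f` is bounded. -/
def Bdd {X : Type*} (f : X → ℝ) : Prop := ∃ C : ℝ, ∀ x, |f x| ≤ C

namespace Bdd

variable {X Y : Type*} {f g : X → ℝ}

theorem exists_nonneg (hf : Bdd f) : ∃ C : ℝ, 0 ≤ C ∧ ∀ x, |f x| ≤ C := by
  obtain ⟨C, hC⟩ := hf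
  exact ⟨max C 0, le_max_right _ _, fun x => (hC x).trans (le_max_left _ _)⟩

theorem const (c : ℝ) : Bdd (fun _ : X => c) := ⟨|c|, fun _ => le_rfl⟩

theorem zero : Bdd (0 : X → ℝ) := const 0

theorem one : Bdd (1 : X → ℝ) := const 1

theorem add (hf : Bdd f) (hg : Bdd g) : Bdd (f + g) := by
  obtain ⟨C, hC⟩ := hf
  obtain ⟨C', hC'⟩ := hg
  exact ⟨C + C', fun x => (abs_add_le _ _).trans (add_le_add (hC x) (hC' x))⟩

theorem smul (c : ℝ) (hf : Bdd f) : Bdd (c • f) := by
  obtain ⟨C, hC⟩ := hf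
  exact ⟨|c| * C, fun x => by
    rw [Pi.smul_apply, smul_eq_mul, abs_mul]
    exact mul_le_mul_of_nonneg_left (hC x) (abs_nonneg _)⟩

theorem neg (hf : Bdd f) : Bdd (-f) := by
  obtain ⟨C, hC⟩ := hf
  exact ⟨C, fun x => by simpa using hC x⟩

theorem sub (hf : Bdd f) (hg : Bdd g) : Bdd (f - g) := by
  rw [sub_eq_add_neg]
  exact hf.add hg.neg

theorem mul (hf : Bdd f) (hg : Bdd g) : Bdd (f * g) := by
  obtain ⟨C, hC⟩ := hf
  obtain ⟨C', hC'⟩ := hg
  exact ⟨C * C', fun x => by
    rw [Pi.mul_apply, abs_mul]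
    exact mul_le_mul (hC x) (hC' x) (abs_nonneg _) ((abs_nonneg _).trans (hC x))⟩

theorem abs (hf : Bdd f) : Bdd (fun x => |f x|) := by
  obtain ⟨C, hC⟩ := hf
  exact ⟨C, fun x => by simpa using hC x⟩

theorem comp (hf : Bdd f) (φ : Y → X) : Bdd (f ∘ φ) := by
  obtain ⟨C, hC⟩ := hf
  exact ⟨C, fun y => hC (φ y)⟩

theorem comp' (hf : Bdd f) (φ : Y → X) : Bdd (fun y => f (φ y)) := hf.comp φ

theorem sum {ι : Type*} (s : Finset ι) {F : ι → X → ℝ} (h : ∀ i ∈ s, Bdd (F i)) :
    Bdd (∑ i ∈ s, F i) := by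
  classical
  induction s using Finset.induction_on with
  | empty => simpa using (zero : Bdd (0 : X → ℝ))
  | insert a s ha ih =>
    rw [Finset.sum_insert ha]
    exact (h a (Finset.mem_insert_self a s)).add
      (ih fun i hi => h i (Finset.mem_insert_of_mem hi))

theorem indicator (S : Set X) : Bdd (S.indicator (1 : X → ℝ)) :=
  ⟨1, fun x => by
    by_cases hx : x ∈ S <;> simp [hx]⟩

theorem of_le (hg : Bdd g) (h : ∀ x, |f x| ≤ |g x|) : Bdd f := by
  obtain ⟨C, hC⟩ := hg
  exact ⟨C, fun x => (h x).trans (hC x)⟩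

end Bdd

/-- A mean on `X`: a positive normalised linear functional on the bounded real functions. -/
structure IsMean {X : Type*} (l : (X → ℝ) → ℝ) : Prop where
  add : ∀ f g : X → ℝ, Bdd f → Bdd g → l (f + g) = l f + l g
  smul : ∀ (c : ℝ) (f : X → ℝ), Bdd f → l (c • f) = c * l f
  nonneg : ∀ f : X → ℝ, Bdd f → 0 ≤ f → 0 ≤ l f
  one : l 1 = 1

namespace IsMean

variable {X : Type*} {l : (X → ℝ) → ℝ} (hl : IsMean l) {f g : X → ℝ}

include hl

theorem zero : l 0 = 0 := by
  have h := hl.smul 0 1 Bdd.one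
  simpa using h

theorem neg (hf : Bdd f) : l (-f) = -l f := by
  have h := hl.smul (-1) f hf
  simpa using h

theorem sub (hf : Bdd f) (hg : Bdd g) : l (f - g) = l f - l g := by
  rw [sub_eq_add_neg, hl.add f (-g) hf hg.neg, hl.neg hg, ← sub_eq_add_neg]

theorem mono (hf : Bdd f) (hg : Bdd g) (h : f ≤ g) : l f ≤ l g := by
  have h1 := hl.nonneg (g - f) (hg.sub hf) (fun x => by simpa using h x)
  rw [hl.sub hg hf] at h1
  linarith

theorem const (c : ℝ) : l (fun _ => c) = c := by
  have h := hl.smul c 1 Bdd.one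
  rw [hl.one, mul_one] at h
  have e : (c • (1 : X → ℝ)) = fun _ => c := by
    funext x
    simp
  rwa [e] at h

theorem le_of_le (hf : Bdd f) {C : ℝ} (h : ∀ x, f x ≤ C) : l f ≤ C := by
  have := hl.mono hf (Bdd.const C) h
  rwa [hl.const] at this

theorem le_of_ge (hf : Bdd f) {C : ℝ} (h : ∀ x, C ≤ f x) : C ≤ l f := by
  have := hl.mono (Bdd.const C) hf h
  rwa [hl.const] at this

theorem abs_le {C : ℝ} (h : ∀ x, |f x| ≤ C) : |l f| ≤ C := by
  have hf : Bdd f := ⟨C, h⟩
  rw [_root_.abs_le]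
  exact ⟨hl.le_of_ge hf fun x => (_root_.abs_le.mp (h x)).1,
    hl.le_of_le hf fun x => (_root_.abs_le.mp (h x)).2⟩

theorem abs_le_abs (hf : Bdd f) : |l f| ≤ l (fun x => |f x|) := by
  rw [_root_.abs_le]
  constructor
  · have := hl.mono (f := -fun x => |f x|) (g := f) hf.abs.neg hf
      (fun x => by simpa using neg_abs_le (f x))
    rwa [hl.neg hf.abs] at this
  · exact hl.mono hf hf.abs fun x => le_abs_self (f x)

theorem sum {ι : Type*} (s : Finset ι) {F : ι → X → ℝ} (h : ∀ i ∈ s, Bdd (F i)) :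
    l (∑ i ∈ s, F i) = ∑ i ∈ s, l (F i) := by
  classical
  induction s using Finset.induction_on with
  | empty => simpa using hl.zero
  | insert a s ha ih =>
    rw [Finset.sum_insert ha, Finset.sum_insert ha,
      hl.add _ _ (h a (Finset.mem_insert_self a s))
        (Bdd.sum s fun i hi => h i (Finset.mem_insert_of_mem hi)),
      ih fun i hi => h i (Finset.mem_insert_of_mem hi)]

/-- Cauchy-Schwarz for a mean. -/
theorem cauchy_schwarz (hf : Bdd f) (hg : Bdd g) :
    (l (f * g)) ^ 2 ≤ l (f * f) * l (g * g) := by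
  have key : ∀ t : ℝ, 0 ≤ l (f * f) + 2 * t * l (f * g) + t * t * l (g * g) := by
    intro t
    have h1 : 0 ≤ l ((f + t • g) * (f + t • g)) :=
      hl.nonneg _ ((hf.add (hg.smul t)).mul (hf.add (hg.smul t)))
        (fun x => mul_self_nonneg ((f + t • g) x))
    have e : (f + t • g) * (f + t • g) = f * f + ((2 * t) • (f * g) + (t * t) • (g * g)) := by
      funext x
      simp only [Pi.mul_apply, Pi.add_apply, Pi.smul_apply, smul_eq_mul]
      ring
    rw [e, hl.add _ _ (hf.mul hf) (((hf.mul hg).smul _).add ((hg.mul hg).smul _)),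
      hl.add _ _ ((hf.mul hg).smul _) ((hg.mul hg).smul _),
      hl.smul _ _ (hf.mul hg), hl.smul _ _ (hg.mul hg)] at h1
    linarith
  have h := discrim_le_zero (a := l (g * g)) (b := 2 * l (f * g)) (c := l (f * f))
    (fun t => by nlinarith [key t])
  rw [discrim] at h
  nlinarith [h]

end IsMean

/-- The finitely additive probability of a mean. -/
noncomputable def mset {X : Type*} (l : (X → ℝ) → ℝ) (S : Set X) : ℝ :=
  l (S.indicator 1)

namespace IsMean

variable {X : Type*} {l : (X → ℝ) → ℝ} (hl : IsMean l)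

include hl

theorem mset_nonneg (S : Set X) : 0 ≤ mset l S :=
  hl.nonneg _ (Bdd.indicator S) (Set.indicator_nonneg fun _ _ => zero_le_one)

theorem mset_le_one (S : Set X) : mset l S ≤ 1 :=
  hl.le_of_le (Bdd.indicator S) fun x => by
    by_cases hx : x ∈ S <;> simp [hx]

theorem mset_mono {S T : Set X} (h : S ⊆ T) : mset l S ≤ mset l T :=
  hl.mono (Bdd.indicator S) (Bdd.indicator T)
    (Set.indicator_le_indicator_of_subset h fun _ => zero_le_one)

theorem mset_univ : mset l (Set.univ : Set X) = 1 := by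
  rw [mset, Set.indicator_univ, hl.one]

theorem mset_empty : mset l (∅ : Set X) = 0 := by
  rw [mset, Set.indicator_empty]
  exact hl.zero

theorem mset_union_le (S T : Set X) : mset l (S ∪ T) ≤ mset l S + mset l T := by
  rw [mset, mset, mset, ← hl.add _ _ (Bdd.indicator S) (Bdd.indicator T)]
  refine hl.mono (Bdd.indicator _) ((Bdd.indicator S).add (Bdd.indicator T)) fun x => ?_
  by_cases h1 : x ∈ S <;> by_cases h2 : x ∈ T <;> simp [h1, h2]

theorem mset_union_of_disjoint {S T : Set X} (h : Disjoint S T) :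
    mset l (S ∪ T) = mset l S + mset l T := by
  rw [mset, mset, mset, ← hl.add _ _ (Bdd.indicator S) (Bdd.indicator T)]
  congr 1
  funext x
  by_cases h1 : x ∈ S <;> by_cases h2 : x ∈ T
  · exact absurd h2 (Set.disjoint_left.mp h h1)
  all_goals simp [h1, h2]

theorem mset_compl (S : Set X) : mset l Sᶜ = 1 - mset l S := by
  have h := hl.mset_union_of_disjoint (disjoint_compl_right (a := S))
  rw [Set.union_compl_self, hl.mset_univ] at h
  linarith

/-- Markov's inequality. -/
theorem mset_ge_le {f : X → ℝ} (hf : Bdd f) (h0 : 0 ≤ f) {ε : ℝ} (hε : 0 < ε) :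
    mset l {x | ε ≤ f x} ≤ l f / ε := by
  rw [le_div_iff₀ hε]
  have e : mset l {x | ε ≤ f x} * ε = l (ε • ({x | ε ≤ f x}.indicator 1)) := by
    rw [hl.smul _ _ (Bdd.indicator _), mul_comm]
    rfl
  rw [e]
  refine hl.mono ((Bdd.indicator _).smul ε) hf fun x => ?_
  by_cases hx : ε ≤ f x
  · simp [hx]
  · simpa [hx] using h0 x

end IsMean

end Vale.Agent.P011.H722
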