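import Vale.Agent.P011.H722.MeanDef

/-!
# Invariant means vanishing on a stable family of functions

Fixed points of commuting continuous linear maps on a compact convex set (Markov, Kakutani),
the solvable case, and the existence of means invariant under a solvable group and vanishing on
a stable family of functions.  Symmetric translation invariant means on commutative groups,
ultrafilters without null sets.
-/

open Filter Topology Set
open scoped commutatorElement

namespace Vale.Agent.P011.H722

section FixedPoint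

variable {J : Type*} {C : Set (J → ℝ)}

theorem avg_mem (hconv : Convex ℝ C) {a : ℕ → J → ℝ} (ha : ∀ i, a i ∈ C) (n : ℕ) :
    ((n : ℝ) + 1)⁻¹ • ∑ i ∈ Finset.range (n + 1), a i ∈ C := by
  have hn : (0 : ℝ) < (n : ℝ) + 1 := by positivity
  have h := hconv.sum_mem (t := Finset.range (n + 1)) (w := fun _ => ((n : ℝ) + 1)⁻¹) (z := a)
    (fun _ _ => by positivity) (by simp [hn.ne']) (fun i _ => ha i)
  rwa [← Finset.smul_sum] at h

/-- One continuous linear map preserving a nonempty compact convex set has a fixed point. -/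
theorem exists_fixed_one (hC : IsCompact C) (hconv : Convex ℝ C) (hne : C.Nonempty)
    (T : (J → ℝ) →L[ℝ] (J → ℝ)) (hT : MapsTo T C C) : ∃ l ∈ C, T l = l := by
  classical
  obtain ⟨l₀, hl₀⟩ := hne
  set a : ℕ → J → ℝ := fun i => T^[i] l₀ with ha
  have haC : ∀ i, a i ∈ C := fun i => (hT.iterate i) hl₀
  set A : ℕ → J → ℝ := fun n => ((n : ℝ) + 1)⁻¹ • ∑ i ∈ Finset.range (n + 1), a i with hA
  have hAC : ∀ n, A n ∈ C := fun n => avg_mem hconv haC n
  -- a limit along an ultrafilter
  obtain ⟨l, hlC, hl⟩ := hC.ultrafilter_le_nhds ((hyperfilter ℕ).map A)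
    (by
      rw [Ultrafilter.coe_map, show (Filter.map A (hyperfilter ℕ : Filter ℕ) ≤ 𝓟 C) = Tendsto A (hyperfilter ℕ : Filter ℕ) (𝓟 C) from rfl]
      exact Filter.tendsto_principal.mpr (Filter.Eventually.of_forall hAC))
  have hlim : Tendsto A (hyperfilter ℕ : Filter ℕ) (𝓝 l) := hl
  refine ⟨l, hlC, ?_⟩
  have h1 : Tendsto (fun n => T (A n) - A n) (hyperfilter ℕ : Filter ℕ) (𝓝 (T l - l)) :=
    ((T.continuous.tendsto l).comp hlim).sub hlim
  have htop : (hyperfilter ℕ : Filter ℕ) ≤ atTop := by
    rw [← Nat.cofinite_eq_atTop]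
    exact hyperfilter_le_cofinite
  have h2 : Tendsto (fun n => T (A n) - A n) (hyperfilter ℕ : Filter ℕ) (𝓝 0) := by
    rw [tendsto_pi_nhds]
    intro j
    obtain ⟨B, hB⟩ := ((hC.image (continuous_apply j)).isBounded).exists_norm_le
    have hBj : ∀ i, |a i j| ≤ B := fun i => hB (a i j) ⟨a i, haC i, rfl⟩
    have e : ∀ n : ℕ, (T (A n) - A n) j = ((n : ℝ) + 1)⁻¹ * (a (n + 1) j - a 0 j) := by
      intro n
      have e1 : T (A n) = ((n : ℝ) + 1)⁻¹ • ∑ i ∈ Finset.range (n + 1), a (i + 1) := by
        rw [hA]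
        simp only [map_smul, map_sum]
        congr 1
        refine Finset.sum_congr rfl fun i _ => ?_
        rw [ha]
        exact (Function.iterate_succ_apply' T i l₀).symm
      have e2 : T (A n) - A n = ((n : ℝ) + 1)⁻¹ • (a (n + 1) - a 0) := by
        rw [e1, hA, ← smul_sub, ← Finset.sum_sub_distrib]
        congr 1
        exact Finset.sum_range_sub a (n + 1)
      rw [e2]
      rfl
    have h3 : Tendsto (fun n : ℕ => (T (A n) - A n) j) atTop (𝓝 0) := by
      have h4 : Tendsto (fun n : ℕ => ((n : ℝ) + 1)⁻¹ * (2 * B)) atTop (𝓝 0) := by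
        have h5 : Tendsto (fun n : ℕ => ((n : ℝ) + 1)⁻¹) atTop (𝓝 0) := by
          have := tendsto_one_div_add_atTop_nhds_zero_nat (𝕜 := ℝ)
          simpa [one_div] using this
        simpa using h5.mul_const (2 * B)
      refine squeeze_zero_norm (fun n => ?_) h4
      rw [e n, norm_mul, Real.norm_eq_abs, Real.norm_eq_abs,
        abs_of_pos (by positivity : (0 : ℝ) < ((n : ℝ) + 1)⁻¹)]
      refine mul_le_mul_of_nonneg_left ?_ (by positivity)
      calc |a (n + 1) j - a 0 j| ≤ |a (n + 1) j| + |a 0 j| := abs_sub _ _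
        _ ≤ B + B := add_le_add (hBj _) (hBj _)
        _ = 2 * B := by ring
    exact h3.mono_left htop
  have h3 := tendsto_nhds_unique h1 h2
  exact sub_eq_zero.mp h3

/-- The common fixed points in `C` of a set of maps. -/
def fixSet {ι : Type*} (C : Set (J → ℝ)) (T : ι → (J → ℝ) →L[ℝ] (J → ℝ)) (s : Set ι) :
    Set (J → ℝ) := {l | l ∈ C ∧ ∀ i ∈ s, T i l = l}

theorem fixSet_isCompact {ι : Type*} (hC : IsCompact C) (T : ι → (J → ℝ) →L[ℝ] (J → ℝ))
    (s : Set ι) : IsCompact (fixSet C T s) := by
  have e : fixSet C T s = C ∩ ⋂ i ∈ s, {l | T i l = l} := by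
    ext l
    simp [fixSet]
  rw [e]
  refine hC.inter_right (isClosed_biInter fun i _ => ?_)
  exact isClosed_eq (T i).continuous continuous_id

theorem fixSet_convex {ι : Type*} (hconv : Convex ℝ C) (T : ι → (J → ℝ) →L[ℝ] (J → ℝ))
    (s : Set ι) : Convex ℝ (fixSet C T s) := by
  rintro x ⟨hx, hx'⟩ y ⟨hy, hy'⟩ a b ha hb hab
  refine ⟨hconv hx hy ha hb hab, fun i hi => ?_⟩
  rw [map_add, map_smul, map_smul, hx' i hi, hy' i hi]

/-- **Markov-Kakutani**: maps which commute on `C` have a common fixed point in `C`. -/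
theorem exists_fixed {ι : Type*} (hC : IsCompact C) (hconv : Convex ℝ C) (hne : C.Nonempty)
    (T : ι → (J → ℝ) →L[ℝ] (J → ℝ)) (hT : ∀ i, MapsTo (T i) C C)
    (hcomm : ∀ i j, ∀ l ∈ C, T i (T j l) = T j (T i l)) : ∃ l ∈ C, ∀ i, T i l = l := by
  classical
  have hfin : ∀ s : Finset ι, (fixSet C T (s : Set ι)).Nonempty := by
    intro s
    induction s using Finset.induction_on with
    | empty =>
      obtain ⟨l, hl⟩ := hne
      exact ⟨l, hl, by simp⟩
    | insert a s _ ih =>
      have hmaps : MapsTo (T a) (fixSet C T (s : Set ι)) (fixSet C T (s : Set ι)) := by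
        rintro l ⟨hl, hl'⟩
        refine ⟨hT a hl, fun i hi => ?_⟩
        rw [hcomm i a l hl, hl' i hi]
      obtain ⟨l, ⟨hl, hl'⟩, hla⟩ := exists_fixed_one (fixSet_isCompact hC T (s : Set ι))
        (fixSet_convex hconv T (s : Set ι)) ih (T a) hmaps
      refine ⟨l, hl, fun i hi => ?_⟩
      rcases Finset.mem_insert.mp (Finset.mem_coe.mp hi) with rfl | hi'
      · exact hla
      · exact hl' i (Finset.mem_coe.mpr hi')
  have h := hC.inter_iInter_nonempty (fun i : ι => {l : J → ℝ | T i l = l})
    (fun i => isClosed_eq (T i).continuous continuous_id)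
    (fun u => by
      obtain ⟨l, hl, hl'⟩ := hfin u
      exact ⟨l, hl, by simpa using hl'⟩)
  obtain ⟨l, hl, hl'⟩ := h
  refine ⟨l, hl, fun i => ?_⟩
  have := Set.mem_iInter.mp hl' i
  exact this

/-- Solvable groups: a nonempty compact convex set preserved by a solvable group of continuous
linear maps contains a fixed point. -/
theorem exists_fixed_of_solvable {G : Type*} [Group G] [hG : Group.IsSolvable G] (hC : IsCompact C)
    (hconv : Convex ℝ C) (hne : C.Nonempty) (T : G → (J → ℝ) →L[ℝ] (J → ℝ))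
    (hT : ∀ g, MapsTo (T g) C C) (hone : ∀ l, T 1 l = l)
    (hmul : ∀ g h l, T (g * h) l = T g (T h l)) : ∃ l ∈ C, ∀ g, T g l = l := by
  have hinv : ∀ g l, T g (T g⁻¹ l) = l := by
    intro g l
    rw [← hmul, mul_inv_cancel, hone]
  -- descending induction on the derived series
  have key : ∀ n : ℕ, (fixSet C T (derivedSeries G n : Set G)).Nonempty →
      (fixSet C T (derivedSeries G 0 : Set G)).Nonempty := by
    intro n
    induction n with
    | zero => exact id
    | succ n ih =>
      intro hn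
      apply ih
      set C' := fixSet C T (derivedSeries G (n + 1) : Set G) with hC'
      have hnorm : (derivedSeries G (n + 1)).Normal := derivedSeries_normal G (n + 1)
      have hmaps : ∀ g : G, MapsTo (T g) C' C' := by
        rintro g l ⟨hl, hl'⟩
        refine ⟨hT g hl, fun a ha => ?_⟩
        have h1 : g⁻¹ * a * g ∈ derivedSeries G (n + 1) := by
          have := hnorm.conj_mem a ha g⁻¹
          simpa using this
        have h2 := hl' _ h1
        calc T a (T g l) = T (a * g) l := (hmul a g l).symm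
          _ = T (g * (g⁻¹ * a * g)) l := by
            congr 2
            group
          _ = T g (T (g⁻¹ * a * g) l) := hmul _ _ _
          _ = T g l := by rw [h2]
      have hcomm : ∀ i j : derivedSeries G n, ∀ l ∈ C', T i (T j l) = T j (T i l) := by
        rintro ⟨g, hg⟩ ⟨h, hh⟩ l hl
        have hc : ⁅g, h⁆ ∈ derivedSeries G (n + 1) := by
          rw [derivedSeries_succ]
          exact Subgroup.commutator_mem_commutator hg hh
        have hml : T (h * g) l ∈ C' := hmaps (h * g) hl
        have h3 := hml.2 _ hc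
        change T g (T h l) = T h (T g l)
        rw [← hmul g h l, ← hmul h g l]
        have e : g * h = ⁅g, h⁆ * (h * g) := by
          rw [commutatorElement_def]
          group
        rw [e, hmul, h3]
      obtain ⟨l, hl, hl'⟩ := exists_fixed (fixSet_isCompact hC T _)
        (fixSet_convex hconv T _) hn (fun g : derivedSeries G n => T g)
        (fun g => hmaps g) hcomm
      exact ⟨l, hl.1, fun g hg => hl' ⟨g, hg⟩⟩
  obtain ⟨n, hn⟩ := hG.solvable
  have h0 : (fixSet C T (derivedSeries G n : Set G)).Nonempty := by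
    obtain ⟨l, hl⟩ := hne
    refine ⟨l, hl, fun g hg => ?_⟩
    rw [hn] at hg
    have : g = 1 := by simpa using hg
    rw [this, hone]
  obtain ⟨l, hl, hl'⟩ := key n h0
  exact ⟨l, hl, fun g => hl' g (by simp)⟩

end FixedPoint

/-- A group with a normal commutative subgroup containing all commutators is solvable. -/
theorem isSolvable_of_comm {G : Type*} [Group G] (A : Subgroup G)
    (hA : ∀ a ∈ A, ∀ b ∈ A, a * b = b * a) (hG : ∀ g h : G, ⁅g, h⁆ ∈ A) : Group.IsSolvable G := by
  refine ⟨⟨2, ?_⟩⟩
  have h1 : derivedSeries G 1 ≤ A := by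
    rw [derivedSeries_succ, Subgroup.commutator_le]
    exact fun g _ h _ => hG g h
  rw [eq_bot_iff, derivedSeries_succ, Subgroup.commutator_le]
  intro g hg h hh
  rw [Subgroup.mem_bot, commutatorElement_eq_one_iff_mul_comm]
  exact hA g (h1 hg) h (h1 hh)

section Means

variable {X : Type*}

/-- The means on `X` which vanish on the unbounded functions and on a family. -/
def meanSet {I : Type*} (Φ : I → X → ℝ) : Set ((X → ℝ) → ℝ) :=
  {l | IsMean l ∧ (∀ f, ¬ Bdd f → l f = 0) ∧ ∀ i, l (Φ i) = 0}

/-- A mean may be changed to zero on the unbounded functions. -/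
theorem IsMean.cut {l : (X → ℝ) → ℝ} (hl : IsMean l) :
    ∃ l' : (X → ℝ) → ℝ, IsMean l' ∧ (∀ f, ¬ Bdd f → l' f = 0) ∧ ∀ f, Bdd f → l' f = l f := by
  classical
  refine ⟨fun f => if Bdd f then l f else 0, ⟨?_, ?_, ?_, ?_⟩, fun f hf => if_neg hf,
    fun f hf => if_pos hf⟩
  · intro f g hf hg
    simp only [hf, hg, hf.add hg, if_true]
    exact hl.add f g hf hg
  · intro c f hf
    simp only [hf, hf.smul c, if_true]
    exact hl.smul c f hf
  · intro f hf h0
    simp only [hf, if_true]
    exact hl.nonneg f hf h0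
  · simp only [Bdd.one, if_true]
    exact hl.one

theorem isClosed_isMean : IsClosed {l : (X → ℝ) → ℝ | IsMean l} := by
  have e : {l : (X → ℝ) → ℝ | IsMean l} =
      (⋂ f : X → ℝ, ⋂ g : X → ℝ, ⋂ _ : Bdd f, ⋂ _ : Bdd g, {l | l (f + g) = l f + l g}) ∩
      ((⋂ c : ℝ, ⋂ f : X → ℝ, ⋂ _ : Bdd f, {l | l (c • f) = c * l f}) ∩
      ((⋂ f : X → ℝ, ⋂ _ : Bdd f, ⋂ _ : 0 ≤ f, {l | 0 ≤ l f}) ∩ {l | l 1 = 1})) := by
    ext l
    simp only [mem_ofPred_eq, mem_inter_iff, mem_iInter]
    constructor
    · intro h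
      exact ⟨fun f g hf hg => h.add f g hf hg, fun c f hf => h.smul c f hf,
        fun f hf h0 => h.nonneg f hf h0, h.one⟩
    · rintro ⟨h1, h2, h3, h4⟩
      exact ⟨fun f g hf hg => h1 f g hf hg, fun c f hf => h2 c f hf,
        fun f hf h0 => h3 f hf h0, h4⟩
  rw [e]
  refine IsClosed.inter ?_ (IsClosed.inter ?_ (IsClosed.inter ?_ ?_))
  · refine isClosed_iInter fun f => isClosed_iInter fun g => isClosed_iInter fun _ =>
      isClosed_iInter fun _ => ?_
    exact isClosed_eq (continuous_apply _) ((continuous_apply f).add (continuous_apply g))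
  · refine isClosed_iInter fun c => isClosed_iInter fun f => isClosed_iInter fun _ => ?_
    exact isClosed_eq (continuous_apply _) (continuous_const.mul (continuous_apply f))
  · refine isClosed_iInter fun f => isClosed_iInter fun _ => isClosed_iInter fun _ => ?_
    exact isClosed_le continuous_const (continuous_apply f)
  · exact isClosed_eq (continuous_apply _) continuous_const

theorem meanSet_isCompact {I : Type*} (Φ : I → X → ℝ) : IsCompact (meanSet Φ) := by
  classical
  -- a bound for each function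
  set B : (X → ℝ) → ℝ := fun f => if h : Bdd f then h.choose else 0 with hB
  have hcpt : IsCompact (Set.pi univ fun f : X → ℝ => Set.Icc (-B f) (B f)) :=
    isCompact_univ_pi fun f => isCompact_Icc
  have hclosed : IsClosed (meanSet Φ) := by
    have e : meanSet Φ = {l : (X → ℝ) → ℝ | IsMean l} ∩
        ((⋂ f : X → ℝ, ⋂ _ : ¬ Bdd f, {l | l f = 0}) ∩ ⋂ i, {l | l (Φ i) = 0}) := by
      ext l
      simp [meanSet]
    rw [e]
    refine isClosed_isMean.inter (IsClosed.inter ?_ ?_)
    · refine isClosed_iInter fun f => isClosed_iInter fun _ => ?_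
      exact isClosed_eq (continuous_apply f) continuous_const
    · exact isClosed_iInter fun i => isClosed_eq (continuous_apply _) continuous_const
  refine hcpt.of_isClosed_subset hclosed ?_
  rintro l ⟨hl, h0, -⟩ f -
  by_cases hf : Bdd f
  · have h1 : B f = hf.choose := by
      rw [hB]
      exact dif_pos hf
    have h2 := hl.abs_le (f := f) (C := B f) (by
      rw [h1]
      exact hf.choose_spec)
    exact abs_le.mp h2
  · have h1 : B f = 0 := by
      rw [hB]
      exact dif_neg hf
    change l f ∈ Set.Icc (-B f) (B f)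
    rw [h1, h0 f hf]
    simp

theorem meanSet_convex {I : Type*} (Φ : I → X → ℝ) : Convex ℝ (meanSet Φ) := by
  rintro l ⟨hl, hl0, hl1⟩ m ⟨hm, hm0, hm1⟩ a b ha hb hab
  refine ⟨⟨?_, ?_, ?_, ?_⟩, ?_, ?_⟩
  · intro f g hf hg
    simp only [Pi.add_apply, Pi.smul_apply, smul_eq_mul, hl.add f g hf hg, hm.add f g hf hg]
    ring
  · intro c f hf
    simp only [Pi.add_apply, Pi.smul_apply, smul_eq_mul, hl.smul c f hf, hm.smul c f hf]
    ring
  · intro f hf h0
    simp only [Pi.add_apply, Pi.smul_apply, smul_eq_mul]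
    exact add_nonneg (mul_nonneg ha (hl.nonneg f hf h0)) (mul_nonneg hb (hm.nonneg f hf h0))
  · simp only [Pi.add_apply, Pi.smul_apply, smul_eq_mul, hl.one, hm.one]
    linarith
  · intro f hf
    simp only [Pi.add_apply, Pi.smul_apply, smul_eq_mul, hl0 f hf, hm0 f hf]
    ring
  · intro i
    simp only [Pi.add_apply, Pi.smul_apply, smul_eq_mul, hl1 i, hm1 i]
    ring

/-- If every finite part of the family is almost killed by some mean, then some mean kills the
whole family. -/
theorem meanSet_nonempty {I : Type*} (Φ : I → X → ℝ) (hΦ : ∀ i, Bdd (Φ i))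
    (h : ∀ (s : Finset I) (ε : ℝ), 0 < ε → ∃ l, IsMean l ∧ ∀ i ∈ s, |l (Φ i)| ≤ ε) :
    (meanSet Φ).Nonempty := by
  classical
  have hK : IsCompact (meanSet (X := X) (I := Empty) (fun e => e.elim)) := meanSet_isCompact _
  have h1 := hK.inter_iInter_nonempty
    (fun q : I × {ε : ℝ // 0 < ε} => {l : (X → ℝ) → ℝ | |l (Φ q.1)| ≤ q.2.1})
    (fun q => isClosed_le ((continuous_apply (Φ q.1)).abs) continuous_const)
    (fun u => by
      -- the smallest precision
      obtain ⟨ε, hε, hεu⟩ : ∃ ε : ℝ, 0 < ε ∧ ∀ q ∈ u, ε ≤ q.2.1 := by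
        induction u using Finset.induction_on with
        | empty => exact ⟨1, one_pos, by simp⟩
        | insert a s _ ih =>
          obtain ⟨ε, hε, hs⟩ := ih
          refine ⟨min ε a.2.1, lt_min hε a.2.2, fun q hq => ?_⟩
          rcases Finset.mem_insert.mp hq with rfl | hq'
          · exact min_le_right _ _
          · exact (min_le_left _ _).trans (hs q hq')
      obtain ⟨l, hl, hl'⟩ := h (u.image Prod.fst) ε hε
      obtain ⟨m, hm, hm0, hml⟩ := hl.cut
      refine ⟨m, ⟨hm, hm0, fun e => e.elim⟩, ?_⟩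
      rw [Set.mem_iInter₂]
      intro q hq
      change |m (Φ q.1)| ≤ q.2.1
      rw [hml _ (hΦ q.1)]
      exact (hl' q.1 (Finset.mem_image_of_mem _ hq)).trans (hεu q hq))
  obtain ⟨l, ⟨hl, hl0, -⟩, hl'⟩ := h1
  refine ⟨l, hl, hl0, fun i => ?_⟩
  rw [Set.mem_iInter] at hl'
  refine abs_eq_zero.mp (le_antisymm (le_of_forall_pos_le_add fun ε hε => ?_) (abs_nonneg _))
  have h2 : |l (Φ i)| ≤ ε := hl' (i, ⟨ε, hε⟩)
  simpa using h2

variable {G : Type*} [Group G] [MulAction G X]

/-- The translation operator on functionals. -/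
noncomputable def transl (X : Type*) [MulAction G X] (g : G) :
    ((X → ℝ) → ℝ) →L[ℝ] ((X → ℝ) → ℝ) where
  toFun l f := l (fun x => f (g • x))
  map_add' _ _ := rfl
  map_smul' _ _ := rfl
  cont := continuous_pi fun _ => continuous_apply _

theorem transl_apply (g : G) (l : (X → ℝ) → ℝ) (f : X → ℝ) :
    transl X g l f = l (fun x => f (g • x)) := rfl

theorem bdd_smul_iff (g : G) (f : X → ℝ) : Bdd (fun x => f (g • x)) ↔ Bdd f := by
  constructor
  · intro h
    have := h.comp' (fun x : X => g⁻¹ • x)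
    simpa using this
  · intro h
    exact h.comp' _

/-- **Invariant means.**  A solvable group acts on `X`, the family `Φ` of bounded functions is
stable under the action, and each finite part of the family is almost killed by some mean.
Then there is an invariant mean which kills the family. -/
theorem exists_invariant_mean [Group.IsSolvable G] {I : Type*} (Φ : I → X → ℝ)
    (hΦ : ∀ i, Bdd (Φ i)) (hstab : ∀ (g : G) (i : I), ∃ j, ∀ x, Φ i (g • x) = Φ j x)
    (h : ∀ (s : Finset I) (ε : ℝ), 0 < ε → ∃ l, IsMean l ∧ ∀ i ∈ s, |l (Φ i)| ≤ ε) :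
    ∃ l : (X → ℝ) → ℝ, IsMean l ∧ (∀ (g : G) (f : X → ℝ), l (fun x => f (g • x)) = l f) ∧
      ∀ i, l (Φ i) = 0 := by
  have hmaps : ∀ g : G, MapsTo (transl X g) (meanSet Φ) (meanSet Φ) := by
    rintro g l ⟨hl, hl0, hl1⟩
    refine ⟨⟨?_, ?_, ?_, ?_⟩, ?_, ?_⟩
    · intro f f' hf hf'
      exact hl.add _ _ ((bdd_smul_iff g f).mpr hf) ((bdd_smul_iff g f').mpr hf')
    · intro c f hf
      exact hl.smul c _ ((bdd_smul_iff g f).mpr hf)
    · intro f hf h0
      exact hl.nonneg _ ((bdd_smul_iff g f).mpr hf) (fun x => h0 (g • x))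
    · exact hl.one
    · intro f hf
      exact hl0 _ (fun h => hf ((bdd_smul_iff g f).mp h))
    · intro i
      obtain ⟨j, hj⟩ := hstab g i
      change l (fun x => Φ i (g • x)) = 0
      rw [funext hj]
      exact hl1 j
  have hone : ∀ l : (X → ℝ) → ℝ, transl X (1 : G) l = l := by
    intro l
    funext f
    change l (fun x => f ((1 : G) • x)) = l f
    simp
  have hmul : ∀ (g g' : G) (l : (X → ℝ) → ℝ),
      transl X (g * g') l = transl X g (transl X g' l) := by
    intro g g' l
    funext f
    change l (fun x => f ((g * g') • x)) = l (fun x => f (g • (g' • x)))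
    simp [mul_smul]
  obtain ⟨l, ⟨hl, -, hl1⟩, hfix⟩ := exists_fixed_of_solvable (G := G) (meanSet_isCompact Φ)
    (meanSet_convex Φ) (meanSet_nonempty Φ hΦ h) (fun g => transl X g) hmaps hone hmul
  exact ⟨l, hl, fun g f => congrFun (hfix g) f, hl1⟩

/-- Every solvable group acting on a nonempty set has an invariant mean. -/
theorem exists_invariant_mean' [Group.IsSolvable G] [Nonempty X] :
    ∃ l : (X → ℝ) → ℝ, IsMean l ∧ ∀ (g : G) (f : X → ℝ), l (fun x => f (g • x)) = l f := by
  obtain ⟨x₀⟩ := ‹Nonempty X›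
  have hx : IsMean (fun f : X → ℝ => f x₀) :=
    ⟨fun _ _ _ _ => rfl, fun _ _ _ => rfl, fun f _ h => h x₀, rfl⟩
  obtain ⟨l, hl, hl', -⟩ := exists_invariant_mean (G := G) (X := X) (I := Empty)
    (fun e => e.elim) (fun e => e.elim) (fun _ e => e.elim)
    (fun s ε _ => ⟨_, hx, fun i => i.elim⟩)
  exact ⟨l, hl, hl'⟩

end Means

section Weights

variable {X : Type*}

/-- A finitely supported probability is a mean. -/
theorem isMean_finset (F : Finset X) (w : X → ℝ) (hw : ∀ x ∈ F, 0 ≤ w x)
    (hw1 : ∑ x ∈ F, w x = 1) : IsMean (fun f : X → ℝ => ∑ x ∈ F, w x * f x) where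
  add f g _ _ := by
    simp only [Pi.add_apply, mul_add, Finset.sum_add_distrib]
  smul c f _ := by
    simp only [Pi.smul_apply, smul_eq_mul, Finset.mul_sum]
    exact Finset.sum_congr rfl fun x _ => by ring
  nonneg f _ h0 := Finset.sum_nonneg fun x hx => mul_nonneg (hw x hx) (h0 x)
  one := by simpa using hw1

theorem summable_mul_bdd {w f : X → ℝ} (hw : ∀ x, 0 ≤ w x) (hs : Summable w) (hf : Bdd f) :
    Summable fun x => w x * f x := by
  obtain ⟨C, hC0, hC⟩ := hf.exists_nonneg
  refine Summable.of_norm_bounded (hs.mul_right C) fun x => ?_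
  rw [Real.norm_eq_abs, abs_mul, abs_of_nonneg (hw x)]
  exact mul_le_mul_of_nonneg_left (hC x) (hw x)

/-- Summable nonnegative weights of positive total mass, normalised, give a mean. -/
theorem isMean_tsum {w : X → ℝ} (hw : ∀ x, 0 ≤ w x) (hs : Summable w) (hpos : 0 < ∑' x, w x) :
    IsMean (fun f : X → ℝ => (∑' x, w x * f x) / ∑' x, w x) where
  add f g hf hg := by
    rw [← add_div, ← (summable_mul_bdd hw hs hf).tsum_add (summable_mul_bdd hw hs hg)]
    simp only [Pi.add_apply, mul_add]
  smul c f hf := by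
    rw [← mul_div_assoc, ← tsum_mul_left]
    congr 1
    refine tsum_congr fun x => ?_
    simp only [Pi.smul_apply, smul_eq_mul]
    ring
  nonneg f hf h0 := div_nonneg (tsum_nonneg fun x => mul_nonneg (hw x) (h0 x)) hpos.le
  one := by simp [hpos.ne']

end Weights

section Symmetric

/-- **Symmetric invariant mean** on a commutative group (additive). -/
theorem exists_symm_mean (k : Type*) [AddCommGroup k] :
    ∃ m : (k → ℝ) → ℝ, IsMean m ∧ (∀ (b : k) (f : k → ℝ), m (fun x => f (x + b)) = m f) ∧
      ∀ f : k → ℝ, m (fun x => f (-x)) = m f := by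
  obtain ⟨l, hl, hl'⟩ := exists_invariant_mean' (G := Multiplicative k) (X := k)
  have hinv : ∀ (b : k) (f : k → ℝ), l (fun x => f (b + x)) = l f := fun b f =>
    hl' (Multiplicative.ofAdd b) f
  have hinv' : ∀ (b : k) (f : k → ℝ), l (fun x => f (x + b)) = l f := by
    intro b f
    have := hinv b f
    simpa [add_comm] using this
  have hb : ∀ f : k → ℝ, Bdd f → Bdd (fun x => f (-x)) := fun f hf => hf.comp' _
  refine ⟨fun f => (l f + l (fun x => f (-x))) / 2, ⟨?_, ?_, ?_, ?_⟩, ?_, ?_⟩
  · intro f g hf hg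
    have h1 := hl.add f g hf hg
    have h2 : l (fun x => (f + g) (-x)) = l (fun x => f (-x)) + l (fun x => g (-x)) :=
      hl.add _ _ (hb f hf) (hb g hg)
    rw [h1, h2]
    ring
  · intro c f hf
    have h1 := hl.smul c f hf
    have h2 : l (fun x => (c • f) (-x)) = c * l (fun x => f (-x)) := hl.smul c _ (hb f hf)
    rw [h1, h2]
    ring
  · intro f hf h0
    have h1 := hl.nonneg f hf h0
    have h2 : 0 ≤ l (fun x => f (-x)) := hl.nonneg _ (hb f hf) (fun x => h0 (-x))
    positivity
  · have h2 : l (fun x => (1 : k → ℝ) (-x)) = 1 := hl.one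
    rw [hl.one, h2]
    norm_num
  · intro b f
    have h1 := hinv' b f
    have h2 : l (fun x => f (-x + b)) = l (fun x => f (-x)) := by
      have := hinv' (-b) (fun x => f (-x))
      rw [← this]
      congr 1
      funext x
      congr 1
      abel
    change (l (fun x => f (x + b)) + l (fun x => f (-x + b))) / 2 = _
    rw [h1, h2]
  · intro f
    simp only [neg_neg]
    rw [add_comm]

end Symmetric

section Ultra

variable {X : Type*} {l : (X → ℝ) → ℝ}

/-- An ultrafilter containing a given set of positive mean and no null set. -/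
theorem IsMean.exists_ultrafilter (hl : IsMean l) {S : Set X} (hS : 0 < mset l S) :
    ∃ p : Ultrafilter X, S ∈ p ∧ ∀ N : Set X, mset l N = 0 → N ∉ p := by
  have h0 : ∀ {A B : Set X}, A ⊆ B → mset l B = 0 → mset l A = 0 := fun {A B} h hB =>
    le_antisymm ((hl.mset_mono h).trans hB.le) (hl.mset_nonneg A)
  let F : Filter X :=
    { sets := {A | mset l (S \ A) = 0}
      univ_sets := by
        change mset l (S \ univ) = 0
        rw [Set.sdiff_univ]
        exact hl.mset_empty
      sets_of_superset := fun {A B} hA hAB => h0 (Set.sdiff_subset_sdiff_right hAB) hA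
      inter_sets := fun {A B} hA hB => by
        change mset l (S \ (A ∩ B)) = 0
        rw [Set.sdiff_inter]
        refine le_antisymm ((hl.mset_union_le _ _).trans ?_) (hl.mset_nonneg _)
        have hA' : mset l (S \ A) = 0 := hA
        have hB' : mset l (S \ B) = 0 := hB
        rw [hA', hB', add_zero] }
  have hF : ∀ A : Set X, A ∈ F ↔ mset l (S \ A) = 0 := fun A => Iff.rfl
  have hne : F.NeBot := by
    refine ⟨fun hbot => ?_⟩
    have h1 : (∅ : Set X) ∈ F := by
      rw [hbot]
      exact Filter.mem_bot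
    rw [hF, Set.sdiff_empty] at h1
    exact hS.ne' h1
  refine ⟨Ultrafilter.of F, ?_, fun N hN hNp => ?_⟩
  · apply Ultrafilter.of_le F
    rw [hF, Set.sdiff_self]
    exact hl.mset_empty
  · have h1 : Nᶜ ∈ Ultrafilter.of F := by
      apply Ultrafilter.of_le F
      rw [hF]
      refine h0 (B := N) ?_ hN
      intro x hx
      by_contra h
      exact hx.2 h
    exact (Ultrafilter.compl_mem_iff_notMem.mp h1) hNp

/-- One of finitely many colours has positive mean on a set of positive mean. -/
theorem IsMean.exists_pos {Q : Type*} [Finite Q] (hl : IsMean l) (f : X → Q) {S : Set X}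
    (hS : 0 < mset l S) : ∃ q : Q, 0 < mset l {x | x ∈ S ∧ f x = q} := by
  classical
  obtain ⟨hQ⟩ := nonempty_fintype Q
  by_contra hcon
  push Not at hcon
  have h1 : ∀ q : Q, mset l {x | x ∈ S ∧ f x = q} = 0 := fun q =>
    le_antisymm (hcon q) (hl.mset_nonneg _)
  have h2 : mset l S ≤ ∑ q : Q, mset l {x | x ∈ S ∧ f x = q} := by
    have e : ∑ q : Q, mset l {x | x ∈ S ∧ f x = q} =
        l (∑ q : Q, ({x | x ∈ S ∧ f x = q} : Set X).indicator (1 : X → ℝ)) :=
      (hl.sum Finset.univ fun q _ => Bdd.indicator _).symm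
    rw [e]
    refine hl.mono (Bdd.indicator S) (Bdd.sum _ fun q _ => Bdd.indicator _) fun x => ?_
    rw [Finset.sum_apply]
    by_cases hx : x ∈ S
    · have h3 : (S.indicator (1 : X → ℝ)) x = 1 := by simp [hx]
      have h4 : (({y | y ∈ S ∧ f y = f x} : Set X).indicator (1 : X → ℝ)) x = 1 := by simp [hx]
      rw [h3, ← h4]
      exact Finset.single_le_sum
        (f := fun q : Q => ({y | y ∈ S ∧ f y = q} : Set X).indicator (1 : X → ℝ) x)
        (fun q _ => Set.indicator_nonneg (fun _ _ => zero_le_one) x) (Finset.mem_univ (f x))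
    · have h3 : (S.indicator (1 : X → ℝ)) x = 0 := by simp [hx]
      rw [h3]
      exact Finset.sum_nonneg fun q _ => Set.indicator_nonneg (fun _ _ => zero_le_one) x
  simp only [h1, Finset.sum_const_zero] at h2
  linarith

/-- If `f` is small outside null sets then it tends to zero along an ultrafilter without null
sets. -/
theorem tendsto_zero_of_null {E : Type*} [SeminormedAddCommGroup E] {p : Ultrafilter X}
    (hp : ∀ N : Set X, mset l N = 0 → N ∉ p) {f : X → E}
    (hf : ∀ ε : ℝ, 0 < ε → mset l {x | ε ≤ ‖f x‖} = 0) : Tendsto f p (𝓝 0) := by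
  rw [Metric.tendsto_nhds]
  intro ε hε
  have h1 := hp _ (hf ε hε)
  have h2 : {x | ε ≤ ‖f x‖}ᶜ ∈ p := Ultrafilter.compl_mem_iff_notMem.mpr h1
  refine Filter.mem_of_superset h2 fun x hx => ?_
  simpa using hx

end Ultra

end Vale.Agent.P011.H722
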