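import Mathlib

/-!
# Invariant equivariant sections have fixed values

`G₀`, `G₁` two groups, `Γ` a group mapping to both, `c : Γ → R`.  A measurable function on
`G₀ × Z` which is right `G₀`-invariant and `Γ`-equivariant (up to null sets, for each element) takes
its values in the fixed vectors of every `r ∈ R` which is `c γ` for elements `γ` arbitrarily
close to `1` in `G₁`.
-/

open MeasureTheory Filter Topology Set
open scoped ENNReal Pointwise

namespace Vale.Agent.P011.H722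

section RightInvariant

variable {G Z E : Type*} [Group G] [MeasurableSpace G] [MeasurableMul₂ G] [MeasurableSpace Z]
  [TopologicalSpace E] [TopologicalSpace.MetrizableSpace E]

/-- A measurable function on `G × Z` which is right `G`-invariant (almost everywhere, for each
element of `G`) is a function of the second coordinate. -/
theorem exists_ae_eq_snd (μ : Measure G) [SFinite μ] [μ.IsMulLeftInvariant] (hμ : μ ≠ 0)
    (ν : Measure Z) [SFinite ν] {φ : G × Z → E} (hφ : StronglyMeasurable φ)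
    (hinv : ∀ h : G, ∀ᵐ p ∂(μ.prod ν), φ (p.1 * h, p.2) = φ p) :
    ∃ g₁ : G, ∀ᵐ p ∂(μ.prod ν), φ p = φ (g₁, p.2) := by
  -- the set of the triples `(h, g, z)`
  have hm1 : Measurable fun q : G × (G × Z) => (q.2.1 * q.1, q.2.2) := by fun_prop
  have hS : MeasurableSet {q : G × (G × Z) | φ (q.2.1 * q.1, q.2.2) = φ q.2} :=
    StronglyMeasurable.measurableSet_eq_fun (hφ.comp_measurable hm1)
      (hφ.comp_measurable measurable_snd)
  have h1 : ∀ᵐ q ∂(μ.prod (μ.prod ν)), φ (q.2.1 * q.1, q.2.2) = φ q.2 := by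
    rw [Measure.ae_prod_iff_ae_ae hS]
    exact Eventually.of_forall hinv
  -- reorder: `(g, h, z)`
  have hm2 : Measurable fun q : G × (G × Z) => (q.1 * q.2.1, q.2.2) := by fun_prop
  have hm3 : Measurable fun q : G × (G × Z) => (q.1, q.2.2) := by fun_prop
  have hS' : MeasurableSet {q : G × (G × Z) | φ (q.1 * q.2.1, q.2.2) = φ (q.1, q.2.2)} :=
    StronglyMeasurable.measurableSet_eq_fun (hφ.comp_measurable hm2) (hφ.comp_measurable hm3)
  have h2 : ∀ᵐ q ∂(μ.prod (μ.prod ν)), φ (q.1 * q.2.1, q.2.2) = φ (q.1, q.2.2) := by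
    have e : MeasurePreserving (fun q : G × (G × Z) => (q.2.1, (q.1, q.2.2)))
        (μ.prod (μ.prod ν)) (μ.prod (μ.prod ν)) := by
      have e1 : MeasurePreserving (MeasurableEquiv.prodAssoc : (G × G) × Z ≃ᵐ G × (G × Z))
          ((μ.prod μ).prod ν) (μ.prod (μ.prod ν)) := measurePreserving_prodAssoc μ μ ν
      have e2 : MeasurePreserving (Prod.map Prod.swap id : (G × G) × Z → (G × G) × Z)
          ((μ.prod μ).prod ν) ((μ.prod μ).prod ν) :=
        (Measure.measurePreserving_swap).prod (MeasurePreserving.id ν)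
      exact e1.comp (e2.comp e1.symm)
    exact e.quasiMeasurePreserving.ae h1
  rw [Measure.ae_prod_iff_ae_ae hS'] at h2
  have hne : (ae μ).NeBot := ae_neBot.mpr hμ
  obtain ⟨g₁, hg₁⟩ := h2.exists
  refine ⟨g₁, ?_⟩
  have e3 : MeasurePreserving (fun p : G × Z => (g₁⁻¹ * p.1, p.2)) (μ.prod ν) (μ.prod ν) :=
    (measurePreserving_mul_left μ g₁⁻¹).prod (MeasurePreserving.id ν)
  have h3 := e3.quasiMeasurePreserving.ae hg₁
  filter_upwards [h3] with p hp
  simpa using hp

end RightInvariant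

section Translation

variable {G Z E : Type*} [Group G] [TopologicalSpace G] [MeasurableSpace G]
  [OpensMeasurableSpace G]
  [TopologicalSpace Z] [T2Space Z] [LocallyCompactSpace Z] [SigmaCompactSpace Z]
  [MeasurableSpace Z] [BorelSpace Z]
  [MulAction G Z] [ContinuousSMul G Z]
  [NormedAddCommGroup E] [NormedSpace ℝ E]
  {ν : Measure Z} [IsLocallyFiniteMeasure ν] [ν.InnerRegularCompactLTTop]
  [SMulInvariantMeasure G Z ν]

omit [NormedSpace ℝ E] in
/-- Bounded case. -/
theorem ae_eq_of_close_of_bounded {F : Z → E} (hF : AEStronglyMeasurable F ν) {C : ℝ}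
    (hC : ∀ z, ‖F z‖ ≤ C) {T : E → E}
    (h : ∀ W ∈ 𝓝 (1 : G), ∃ g ∈ W, ∀ᵐ z ∂ν, F (g • z) = T (F z)) :
    ∀ᵐ z ∂ν, T (F z) = F z := by
  -- it is enough to work on compact sets
  suffices hK : ∀ K : Set Z, IsCompact K → ∀ᵐ z ∂ν, z ∈ K → T (F z) = F z by
    have h1 : ∀ n : ℕ, ∀ᵐ z ∂ν, z ∈ compactCovering Z n → T (F z) = F z :=
      fun n => hK _ (isCompact_compactCovering Z n)
    filter_upwards [ae_all_iff.mpr h1] with z hz
    obtain ⟨n, hn⟩ := exists_mem_compactCovering z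
    exact hz n hn
  intro K hK
  obtain ⟨K', hK', hKK'⟩ := exists_compact_superset hK
  set K'' := closure K' with hK''def
  have hK'' : IsCompact K'' := hK'.closure
  have hKK'' : K ⊆ interior K'' := hKK'.trans (interior_mono subset_closure)
  have hmK'' : MeasurableSet K'' := isClosed_closure.measurableSet
  -- the integrable function
  have hint : Integrable (K''.indicator F) ν := by
    rw [integrable_indicator_iff hmK'']
    exact Measure.integrableOn_of_bounded (hK''.measure_lt_top.ne) hF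
      (M := C) (Eventually.of_forall hC)
  have hmem : MemLp (K''.indicator F) 1 ν := memLp_one_iff_integrable.mpr hint
  set f : Lp E 1 ν := hmem.toLp with hf
  -- near `1` we stay in `K''`
  have hW0 : ∀ᶠ g in 𝓝 (1 : G), ∀ z ∈ K, g • z ∈ K'' := by
    have : ∀ᶠ g in 𝓝 (1 : G), ∀ z ∈ K, g • z ∈ interior K'' := by
      have hopen : IsOpen {p : G × Z | p.1 • p.2 ∈ interior K''} :=
        isOpen_interior.preimage continuous_smul
      have hsub : ({(1 : G)} : Set G) ×ˢ K ⊆ {p : G × Z | p.1 • p.2 ∈ interior K''} := by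
        rintro ⟨g, z⟩ ⟨hg, hz⟩
        rw [mem_singleton_iff] at hg
        subst hg
        simpa using hKK'' hz
      obtain ⟨U, V, hU, hV, hU1, hKV, hUV⟩ :=
        generalized_tube_lemma isCompact_singleton hK hopen hsub
      filter_upwards [hU.mem_nhds (hU1 rfl)] with g hg z hz
      exact hUV (mk_mem_prod hg (hKV hz))
    exact this.mono fun g hg z hz => interior_subset (hg z hz)
  -- continuity of the translation
  have hcont : Tendsto (fun g : G => ‖DomMulAct.mk g • f - f‖) (𝓝 1) (𝓝 0) := by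
    have : Fact ((1 : ℝ≥0∞) ≠ ∞) := ⟨ENNReal.one_ne_top⟩
    have h1 : Continuous fun g : G => DomMulAct.mk g • f :=
      (DomMulAct.continuous_mk).smul continuous_const
    have h2 : Continuous fun g : G => ‖DomMulAct.mk g • f - f‖ :=
      (h1.sub continuous_const).norm
    have h3 := h2.tendsto 1
    simpa using h3
  -- the integral over `K`
  have key : ∀ ε : ℝ, 0 < ε → ∫⁻ z in K, ‖T (F z) - F z‖ₑ ∂ν ≤ ENNReal.ofReal ε := by
    intro ε hε
    have h4 : ∀ᶠ g in 𝓝 (1 : G), ‖DomMulAct.mk g • f - f‖ < ε :=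
      (tendsto_order.mp hcont).2 _ hε
    obtain ⟨g, ⟨hg1, hg2⟩, hg3⟩ := h _ (h4.and hW0)
    have h5 : (fun z => K''.indicator F (g • z) - K''.indicator F z) =ᵐ[ν]
        (DomMulAct.mk g • f - f : Lp E 1 ν) := by
      have e1 := Lp.coeFn_sub (DomMulAct.mk g • f) f
      have e2 := DomMulAct.smul_Lp_ae_eq (DomMulAct.mk g) f
      have e3 : (f : Z → E) =ᵐ[ν] K''.indicator F := hmem.coeFn_toLp
      have e4 : (fun z => (f : Z → E) (g • z)) =ᵐ[ν] fun z => K''.indicator F (g • z) :=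
        (measurePreserving_smul g ν).quasiMeasurePreserving.ae_eq_comp e3
      filter_upwards [e1, e2, e3, e4] with z h1 h2 h3 h4
      rw [h1, Pi.sub_apply, h2, h3]
      have h5 : (f : Z → E) (DomMulAct.mk.symm (DomMulAct.mk g) • z) =
          K''.indicator F (g • z) := h4
      rw [h5]
    calc ∫⁻ z in K, ‖T (F z) - F z‖ₑ ∂ν
        = ∫⁻ z in K, ‖K''.indicator F (g • z) - K''.indicator F z‖ₑ ∂ν := by
          refine lintegral_congr_ae ?_
          rw [EventuallyEq, ae_restrict_iff' hK.measurableSet]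
          filter_upwards [hg3] with z hz hzK
          have h6 : g • z ∈ K'' := hg2 z hzK
          have h7 : z ∈ K'' := interior_subset (hKK'' hzK)
          rw [indicator_of_mem h6, indicator_of_mem h7, hz]
      _ ≤ ∫⁻ z, ‖K''.indicator F (g • z) - K''.indicator F z‖ₑ ∂ν :=
          setLIntegral_le_lintegral _ _
      _ = ∫⁻ z, ‖(DomMulAct.mk g • f - f : Lp E 1 ν) z‖ₑ ∂ν := by
          refine lintegral_congr_ae ?_
          filter_upwards [h5] with z hz
          rw [hz]
      _ = ENNReal.ofReal ‖DomMulAct.mk g • f - f‖ := by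
          rw [Lp.norm_def, eLpNorm_one_eq_lintegral_enorm, ENNReal.ofReal_toReal]
          have := Lp.eLpNorm_lt_top (DomMulAct.mk g • f - f)
          rw [eLpNorm_one_eq_lintegral_enorm] at this
          exact this.ne
      _ ≤ ENNReal.ofReal ε := ENNReal.ofReal_le_ofReal hg1.le
  have hzero : ∫⁻ z in K, ‖T (F z) - F z‖ₑ ∂ν = 0 := by
    refine le_antisymm (ENNReal.le_of_forall_pos_le_add ?_) bot_le
    intro ε hε _
    simpa using key ε (by exact_mod_cast hε)
  -- measurability of `T ∘ F`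
  have hTF : AEStronglyMeasurable (fun z => T (F z)) ν := by
    obtain ⟨g, -, hg⟩ := h univ univ_mem
    have e1 : AEStronglyMeasurable (fun z => F (g • z)) ν :=
      hF.comp_quasiMeasurePreserving (measurePreserving_smul g ν).quasiMeasurePreserving
    exact e1.congr hg
  have hae : AEMeasurable (fun z => ‖T (F z) - F z‖ₑ) (ν.restrict K) :=
    (hTF.sub hF).enorm.restrict
  rw [lintegral_eq_zero_iff' hae] at hzero
  rw [EventuallyEq, ae_restrict_iff' hK.measurableSet] at hzero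
  filter_upwards [hzero] with z hz hzK
  have := hz hzK
  simpa [sub_eq_zero] using this

/-- A measurable function with `F (g z) = T (F z)` almost everywhere for elements `g` arbitrarily
close to `1`, `T` homogeneous and norm preserving, satisfies `T F = F` almost everywhere. -/
theorem ae_eq_of_close {F : Z → E} (hF : AEStronglyMeasurable F ν) {T : E → E}
    (hT : ∀ v, ‖T v‖ = ‖v‖) (hT' : ∀ (a : ℝ) (v : E), T (a • v) = a • T v)
    (h : ∀ W ∈ 𝓝 (1 : G), ∃ g ∈ W, ∀ᵐ z ∂ν, F (g • z) = T (F z)) :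
    ∀ᵐ z ∂ν, T (F z) = F z := by
  let ψ : E → E := fun v => (1 + ‖v‖)⁻¹ • v
  have hψ : Continuous ψ := by
    have : ∀ v : E, 1 + ‖v‖ ≠ 0 := fun v => by positivity
    exact ((continuous_const.add continuous_norm).inv₀ this).smul continuous_id
  have hb : ∀ v, ‖ψ v‖ ≤ 1 := by
    intro v
    have h1 : (0 : ℝ) < 1 + ‖v‖ := by positivity
    rw [norm_smul, norm_inv, Real.norm_of_nonneg h1.le, inv_mul_le_iff₀ h1]
    linarith
  have hcomm : ∀ v, ψ (T v) = T (ψ v) := by
    intro v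
    simp only [ψ, hT, hT']
  have h1 := ae_eq_of_close_of_bounded (G := G) (ν := ν) (F := fun z => ψ (F z))
    (hψ.comp_aestronglyMeasurable hF) (C := 1) (fun z => hb _) (T := T) (by
      intro W hW
      obtain ⟨g, hg, h2⟩ := h W hW
      refine ⟨g, hg, ?_⟩
      filter_upwards [h2] with z hz
      rw [hz, hcomm])
  filter_upwards [h1] with z hz
  have h3 : (1 + ‖F z‖)⁻¹ • T (F z) = (1 + ‖F z‖)⁻¹ • F z := by
    simpa only [ψ, hT'] using hz
  exact smul_right_injective E (inv_ne_zero (by positivity : 1 + ‖F z‖ ≠ 0)) h3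

end Translation

section Product

variable {G₀ G₁ Z E : Type*} [Group G₀] [MeasurableSpace G₀] [MeasurableMul₂ G₀]
  [MeasurableInv G₀]
  [Group G₁] [TopologicalSpace G₁] [MeasurableSpace G₁] [OpensMeasurableSpace G₁]
  [TopologicalSpace Z] [T2Space Z] [LocallyCompactSpace Z] [SigmaCompactSpace Z]
  [MeasurableSpace Z] [BorelSpace Z]
  [MulAction G₁ Z] [ContinuousSMul G₁ Z]
  [NormedAddCommGroup E] [NormedSpace ℝ E]
  (μ : Measure G₀) [SFinite μ] [μ.IsMulLeftInvariant]
  (ν : Measure Z) [SFinite ν] [IsLocallyFiniteMeasure ν] [ν.InnerRegularCompactLTTop]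
  [SMulInvariantMeasure G₁ Z ν]

/-- A right `G₀`-invariant measurable function on `G₀ × Z` with
`φ (γ₀ g, γ₁ z) = T (φ (g, z))` for elements `(γ₀, γ₁)` with `γ₁` arbitrarily close to `1` takes
its values in the fixed points of `T`. -/
theorem fixed_of_close {φ : G₀ × Z → E} (hφ : AEStronglyMeasurable φ (μ.prod ν))
    (hinv : ∀ h : G₀, ∀ᵐ p ∂(μ.prod ν), φ (p.1 * h, p.2) = φ p) {T : E → E}
    (hT : ∀ v, ‖T v‖ = ‖v‖) (hT' : ∀ (a : ℝ) (v : E), T (a • v) = a • T v)
    (hclose : ∀ W ∈ 𝓝 (1 : G₁), ∃ g₀ : G₀, ∃ g₁ ∈ W,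
      ∀ᵐ p ∂(μ.prod ν), φ (g₀ * p.1, g₁ • p.2) = T (φ p)) :
    ∀ᵐ p ∂(μ.prod ν), T (φ p) = φ p := by
  by_cases hμ : μ = 0
  · subst hμ
    simp
  have hne : (ae μ).NeBot := ae_neBot.mpr hμ
  -- a strongly measurable representative
  obtain ⟨φ', hφ', hae⟩ := hφ
  have hinv' : ∀ h : G₀, ∀ᵐ p ∂(μ.prod ν), φ' (p.1 * h, p.2) = φ' p := by
    intro h
    have e : Measure.QuasiMeasurePreserving (fun p : G₀ × Z => (p.1 * h, p.2))
        (μ.prod ν) (μ.prod ν) :=
      QuasiMeasurePreserving.prodMap (quasiMeasurePreserving_mul_right μ h)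
        (Measure.QuasiMeasurePreserving.id ν)
    filter_upwards [hinv h, hae, e.ae hae] with p h1 h2 h3
    rw [← h2, ← h1]
    exact h3.symm
  obtain ⟨g₁, hg₁⟩ := exists_ae_eq_snd μ hμ ν hφ' hinv'
  let F : Z → E := fun z => φ' (g₁, z)
  have hF : StronglyMeasurable F := hφ'.comp_measurable (by fun_prop)
  have hφF : ∀ᵐ p ∂(μ.prod ν), φ p = F p.2 := by
    filter_upwards [hae, hg₁] with p h1 h2
    rw [h1, h2]
  have h1 : ∀ W ∈ 𝓝 (1 : G₁), ∃ g ∈ W, ∀ᵐ z ∂ν, F (g • z) = T (F z) := by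
    intro W hW
    obtain ⟨a, b, hb, h⟩ := hclose W hW
    refine ⟨b, hb, ?_⟩
    have e : MeasurePreserving (fun p : G₀ × Z => (a * p.1, b • p.2)) (μ.prod ν) (μ.prod ν) :=
      (measurePreserving_mul_left μ a).prod (measurePreserving_smul b ν)
    have h2 : ∀ᵐ p ∂(μ.prod ν), F (b • p.2) = T (F p.2) := by
      filter_upwards [h, hφF, e.quasiMeasurePreserving.ae hφF] with p h1 h2 h3
      rw [← h2, ← h1]
      exact h3.symm
    have h3 := (Measure.ae_ae_of_ae_prod h2).exists
    obtain ⟨g, hg⟩ := h3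
    exact hg
  have h2 := ae_eq_of_close (G := G₁) (ν := ν) hF.aestronglyMeasurable hT hT' h1
  have h3 : ∀ᵐ p ∂(μ.prod ν), T (F p.2) = F p.2 :=
    (Measure.quasiMeasurePreserving_snd (μ := μ) (ν := ν)).ae h2
  filter_upwards [hφF, h3] with p h4 h5
  rw [h4, h5]

end Product

section Countable

variable {X Y : Type*} [MeasurableSpace X] [MeasurableSpace Y] [Countable Y]

/-- Almost everywhere on `X × Y`, `Y` countable. -/
theorem ae_prod_countable (ρ : Measure X) [SFinite ρ] (κ : Measure Y) [SFinite κ]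
    {P : X × Y → Prop} :
    (∀ᵐ x ∂(ρ.prod κ), P x) ↔ ∀ y, κ {y} ≠ 0 → ∀ᵐ p ∂ρ, P (p, y) := by
  constructor
  · intro h y hy
    have h1 : (ρ.prod κ) {x | ¬ P x} = 0 := h
    obtain ⟨N, hN, hNm, hN0⟩ := exists_measurable_superset_of_null h1
    have h2 : (ρ.prod κ) (((fun p => (p, y)) ⁻¹' N) ×ˢ {y}) = 0 := by
      refine measure_mono_null ?_ hN0
      rintro ⟨p, y'⟩ ⟨hp, hy'⟩
      rw [mem_singleton_iff] at hy'
      subst hy'
      exact hp
    rw [Measure.prod_prod, mul_eq_zero] at h2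
    have h3 : ρ ((fun p => (p, y)) ⁻¹' N) = 0 := h2.resolve_right hy
    refine measure_mono_null ?_ h3
    intro p hp
    exact hN hp
  · intro h
    have h1 : {x : X × Y | ¬ P x} ⊆ ⋃ y : Y, ({p : X | ¬ P (p, y)} ×ˢ {y}) := by
      rintro ⟨p, y⟩ hp
      exact mem_iUnion.mpr ⟨y, hp, rfl⟩
    refine measure_mono_null h1 (measure_iUnion_null fun y => ?_)
    rw [Measure.prod_prod, mul_eq_zero]
    by_cases hy : κ {y} = 0
    · exact Or.inr hy
    · exact Or.inl (h y hy)

end Countable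

section Main

variable {G₀ G₁ Z E Y Γ R : Type*} [Group G₀] [MeasurableSpace G₀] [MeasurableMul₂ G₀]
  [MeasurableInv G₀]
  [Group G₁] [TopologicalSpace G₁] [MeasurableSpace G₁] [OpensMeasurableSpace G₁]
  [TopologicalSpace Z] [T2Space Z] [LocallyCompactSpace Z] [SigmaCompactSpace Z]
  [MeasurableSpace Z] [BorelSpace Z]
  [MulAction G₁ Z] [ContinuousSMul G₁ Z]
  [MeasurableSpace Y] [Countable Y]
  [NormedAddCommGroup E] [NormedSpace ℝ E]
  [Group Γ] [MulAction Γ Y] [Group R] [MulAction R E]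
  (μ : Measure G₀) [SFinite μ] [μ.IsMulLeftInvariant]
  (ν : Measure Z) [SFinite ν] [IsLocallyFiniteMeasure ν] [ν.InnerRegularCompactLTTop]
  [SMulInvariantMeasure G₁ Z ν]
  (κ : Measure Y) [SFinite κ]

/-- **Invariant equivariant sections have fixed values.** `Γ` acts on `G₀ × Z × Y` through
`a₀ : Γ →* G₀`, `a₁ : Γ →* G₁` and its action on the countable set `Y`. A measurable function `φ`
which is right `G₀`-invariant and `c`-equivariant under `Γ` satisfies `r • φ = φ` as soon as for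
every `y` there are elements `γ` of the stabiliser of `y` with `a₁ γ` arbitrarily close to `1` and
`c γ = r`. -/
theorem ker_fixed (a₀ : Γ →* G₀) (a₁ : Γ →* G₁) (c : Γ →* R)
    (hn : ∀ (r : R) (v : E), ‖r • v‖ = ‖v‖)
    (hs : ∀ (r : R) (a : ℝ) (v : E), r • (a • v) = a • (r • v))
    {φ : (G₀ × Z) × Y → E} (hφ : AEStronglyMeasurable φ ((μ.prod ν).prod κ))
    (hinv : ∀ h : G₀, ∀ᵐ x ∂((μ.prod ν).prod κ), φ ((x.1.1 * h, x.1.2), x.2) = φ x)
    (heq : ∀ γ : Γ, ∀ᵐ x ∂((μ.prod ν).prod κ),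
      φ ((a₀ γ * x.1.1, a₁ γ • x.1.2), γ • x.2) = c γ • φ x)
    (r : R) (hSA : ∀ y : Y, κ {y} ≠ 0 → ∀ W ∈ 𝓝 (1 : G₁),
      ∃ γ : Γ, γ • y = y ∧ a₁ γ ∈ W ∧ c γ = r) :
    ∀ᵐ x ∂((μ.prod ν).prod κ), r • φ x = φ x := by
  rw [ae_prod_countable]
  intro y hy
  have hφy : AEStronglyMeasurable (fun p => φ (p, y)) (μ.prod ν) := by
    obtain ⟨φ', hφ', hae⟩ := hφ
    refine ⟨fun p => φ' (p, y), hφ'.comp_measurable (by fun_prop), ?_⟩
    exact (ae_prod_countable (μ.prod ν) κ (P := fun x => φ x = φ' x)).mp hae y hy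
  refine fixed_of_close (G₁ := G₁) μ ν hφy (fun h => ?_) (T := fun v => r • v) (hn r) (hs r) ?_
  · exact (ae_prod_countable (μ.prod ν) κ
      (P := fun x => φ ((x.1.1 * h, x.1.2), x.2) = φ x)).mp (hinv h) y hy
  · intro W hW
    obtain ⟨γ, h1, h2, h3⟩ := hSA y hy W hW
    refine ⟨a₀ γ, a₁ γ, h2, ?_⟩
    have h4 := (ae_prod_countable (μ.prod ν) κ (P := fun x =>
      φ ((a₀ γ * x.1.1, a₁ γ • x.1.2), γ • x.2) = c γ • φ x)).mp (heq γ) y hy
    filter_upwards [h4] with p hp
    simpa only [h1, h3] using hp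

end Main

end Vale.Agent.P011.H722
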